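import Mathlib
import Vale.Agent.P260.H493.Basic

/-!
# P260 climb, M8: vectors with given supports, restriction, windows
-/

namespace Vale.Agent.P260.H932

open MonoidAlgebra Vale.Agent.P260.H493

open scoped Pointwise

variable {k Γ : Type} [Field k] [Group Γ]

/-- vectors with all supports in `S` -/
def W (k : Type) [Field k] (ι : Type) (S : Set Γ) : Submodule k (ι → MonoidAlgebra k Γ) where
  carrier := {v | ∀ i g, (v i).coeff g ≠ 0 → g ∈ S}
  add_mem' := by
    intro v w hv hw i g h
    by_cases h1 : (v i).coeff g = 0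
    · refine hw i g fun h2 => h ?_
      simp [h1, h2]
    · exact hv i g h1
  zero_mem' := by
    intro i g h
    simp at h
  smul_mem' := by
    intro r v hv i g h
    refine hv i g fun h2 => h ?_
    simp [h2]

theorem mem_W {ι : Type} {S : Set Γ} {v : ι → MonoidAlgebra k Γ} :
    v ∈ W k ι S ↔ ∀ i g, (v i).coeff g ≠ 0 → g ∈ S := Iff.rfl

theorem W_mono {ι : Type} {S S' : Set Γ} (h : S ⊆ S') : W k ι S ≤ W k ι S' :=
  fun _ hv i g hg => h (hv i g hg)

theorem vec_ext {ι : Type} {v w : ι → MonoidAlgebra k Γ}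
    (h : ∀ i g, (v i).coeff g = (w i).coeff g) : v = w := by
  funext i
  apply MonoidAlgebra.ext
  ext g
  exact h i g

/-- evaluation at the points of a finite set -/
noncomputable def evalW (k : Type) [Field k] (ι : Type) (S : Finset Γ) :
    W k ι (S : Set Γ) →ₗ[k] (ι × S → k) where
  toFun v p := ((v : ι → MonoidAlgebra k Γ) p.1).coeff p.2
  map_add' v w := by funext p; simp
  map_smul' r v := by funext p; simp

theorem evalW_inj (ι : Type) (S : Finset Γ) : Function.Injective (evalW k ι S) := by
  rw [← LinearMap.ker_eq_bot, LinearMap.ker_eq_bot']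
  rintro ⟨v, hv⟩ h
  apply Subtype.ext
  apply vec_ext
  intro i g
  by_contra hg
  have hg' : (v i).coeff g ≠ 0 := by simpa using hg
  have := congrFun h (i, ⟨g, hv i g hg'⟩)
  exact hg' this

theorem finite_W (ι : Type) [Finite ι] (S : Finset Γ) : Module.Finite k (W k ι (S : Set Γ)) := by
  cases nonempty_fintype ι
  exact Module.Finite.of_injective _ (evalW_inj ι S)

theorem finrank_W (ι : Type) [Fintype ι] (S : Finset Γ) :
    Module.finrank k (W k ι (S : Set Γ)) ≤ Fintype.card ι * S.card := by
  refine (LinearMap.finrank_le_finrank_of_injective (evalW_inj (k := k) ι S)).trans ?_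
  rw [Module.finrank_fintype_fun_eq_card, Fintype.card_prod, Fintype.card_coe]

/-- subspaces of `W S` -/
theorem finrank_le_W (ι : Type) [Fintype ι] (S : Finset Γ)
    (X : Submodule k (ι → MonoidAlgebra k Γ)) (h : X ≤ W k ι (S : Set Γ)) :
    Module.finrank k X ≤ Fintype.card ι * S.card := by
  have := finite_W (k := k) ι S
  exact (Submodule.finrank_mono h).trans (finrank_W ι S)

theorem finrank_map_W (ι : Type) [Fintype ι] (S : Finset Γ) {V : Type} [AddCommGroup V] [Module k V]
    (f : (ι → MonoidAlgebra k Γ) →ₗ[k] V)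
    (X : Submodule k V) (h : X ≤ (W k ι (S : Set Γ)).map f) :
    Module.finrank k X ≤ Fintype.card ι * S.card := by
  have := finite_W (k := k) ι S
  exact (Submodule.finrank_mono h).trans ((Submodule.finrank_map_le f _).trans (finrank_W ι S))

/-- rank-nullity on a subspace -/
theorem finrank_split {V V' : Type} [AddCommGroup V] [Module k V] [AddCommGroup V'] [Module k V']
    (I : Submodule k V) [Module.Finite k I] (f : V →ₗ[k] V') :
    Module.finrank k I ≤ Module.finrank k (I.map f) + Module.finrank k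
      (I ⊓ LinearMap.ker f : Submodule k V) := by
  have h1 := LinearMap.finrank_range_add_finrank_ker (f.domRestrict I)
  have h2 : LinearMap.range (f.domRestrict I) = I.map f := by
    rw [LinearMap.range_domRestrict]
  have h3 : Module.finrank k (LinearMap.ker (f.domRestrict I)) ≤
      Module.finrank k (I ⊓ LinearMap.ker f : Submodule k V) := by
    let g : LinearMap.ker (f.domRestrict I) →ₗ[k] (I ⊓ LinearMap.ker f : Submodule k V) :=
      { toFun := fun x => ⟨x.1.1, x.1.2, x.2⟩
        map_add' := fun x y => rfl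
        map_smul' := fun r x => rfl }
    have hg : Function.Injective g := by
      intro x y h
      apply Subtype.ext
      apply Subtype.ext
      have h' := congrArg (fun z : (I ⊓ LinearMap.ker f : Submodule k V) => (z : V)) h
      exact h'
    have : Module.Finite k (I ⊓ LinearMap.ker f : Submodule k V) :=
      Submodule.finiteDimensional_of_le inf_le_left
    exact LinearMap.finrank_le_finrank_of_injective hg
  rw [h2] at h1
  omega

/-- restriction of vectors to a set of group elements -/
noncomputable def res {ι : Type} (S : Set Γ) :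
    (ι → MonoidAlgebra k Γ) →ₗ[k] (ι → MonoidAlgebra k Γ) where
  toFun v i := by classical exact MonoidAlgebra.ofCoeff ((v i).coeff.filter (· ∈ S))
  map_add' v w := by
    apply vec_ext
    intro i g
    simp [Finsupp.filter_apply]
  map_smul' r v := by
    apply vec_ext
    intro i g
    simp [Finsupp.filter_apply]

open Classical in
theorem res_coeff {ι : Type} (S : Set Γ) (v : ι → MonoidAlgebra k Γ) (i : ι) (g : Γ) :
    ((res S v) i).coeff g = if g ∈ S then (v i).coeff g else 0 := by
  simp [res, Finsupp.filter_apply]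

theorem res_mem {ι : Type} (S : Set Γ) (v : ι → MonoidAlgebra k Γ) : res S v ∈ W k ι S := by
  classical
  intro i g h
  by_contra hg
  rw [res_coeff, if_neg hg] at h
  exact h rfl

theorem res_mem' {ι : Type} (S S' : Set Γ) {v : ι → MonoidAlgebra k Γ} (hv : v ∈ W k ι S') :
    res S v ∈ W k ι (S' ∩ S) := by
  classical
  intro i g h
  refine ⟨?_, res_mem S v i g h⟩
  refine hv i g fun h2 => h ?_
  rw [res_coeff, h2, ite_self]

theorem sub_res_mem {ι : Type} (S : Set Γ) (v : ι → MonoidAlgebra k Γ) :
    v - res S v ∈ W k ι Sᶜ := by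
  classical
  intro i g h hg
  apply h
  rw [Pi.sub_apply]
  simp [res_coeff, if_pos hg]

theorem res_eq_zero {ι : Type} {S : Set Γ} {v : ι → MonoidAlgebra k Γ} (h : v ∈ W k ι Sᶜ) :
    res S v = 0 := by
  classical
  apply vec_ext
  intro i g
  rw [res_coeff]
  split_ifs with hg
  · by_contra h2
    exact h i g (by simpa using h2) hg
  · simp

/-- the set of group elements in the supports of the matrix entries -/
noncomputable def Qs {ι κ : Type} [Fintype ι] [Fintype κ]
    (T : (ι → MonoidAlgebra k Γ) →ₗ[MonoidAlgebra k Γ] (κ → MonoidAlgebra k Γ)) : Finset Γ := by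
  classical
  exact Finset.univ.biUnion fun j : ι => Finset.univ.biUnion fun i : κ =>
    (T (Pi.single j 1) i).coeff.support

theorem mem_Qs {ι κ : Type} [Fintype ι] [Fintype κ] [hι : DecidableEq ι]
    (T : (ι → MonoidAlgebra k Γ) →ₗ[MonoidAlgebra k Γ] (κ → MonoidAlgebra k Γ)) (g : Γ) :
    g ∈ Qs T ↔ ∃ j i, (T (Pi.single j 1) i).coeff g ≠ 0 := by
  obtain rfl : hι = fun a b => Classical.propDecidable (a = b) := Subsingleton.elim _ _
  unfold Qs
  simp only [Finset.mem_biUnion, Finset.mem_univ, true_and, Finsupp.mem_support_iff]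

theorem map_W {ι κ : Type} [Fintype ι] [Fintype κ]
    (T : (ι → MonoidAlgebra k Γ) →ₗ[MonoidAlgebra k Γ] (κ → MonoidAlgebra k Γ)) {S : Set Γ}
    {v : ι → MonoidAlgebra k Γ} (hv : v ∈ W k ι S) : T v ∈ W k κ (S * (Qs T : Set Γ)) := by
  classical
  rw [expand v, map_sum]
  refine Submodule.sum_mem _ fun j _ => ?_
  rw [map_sum]
  refine Submodule.sum_mem _ fun g hg => ?_
  rw [map_k_smul, T.map_smul]
  refine Submodule.smul_mem _ _ ?_
  intro i y h
  have h1 : (T (Pi.single j 1) i).coeff (g⁻¹ * y) ≠ 0 := by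
    intro h2; apply h
    rw [Pi.smul_apply, smul_eq_mul, coeff_single_mul', h2, mul_zero]
  have h2 : g⁻¹ * y ∈ Qs T := (mem_Qs T _).2 ⟨j, i, h1⟩
  exact ⟨g, hv j g (by simpa using hg), g⁻¹ * y, h2, by simp⟩

variable (ψ : Γ →* Multiplicative ℤ)

/-- elements of degree `< c` -/
def Lt (c : ℤ) : Set Γ := {g | deg ψ g < c}

theorem ge_iff_W {ι : Type} {c : ℤ} {v : ι → MonoidAlgebra k Γ} :
    Ge ψ c v ↔ v ∈ W k ι (Lt ψ c)ᶜ := by
  constructor
  · intro h i g hg
    exact not_lt.2 (h i g hg)
  · intro h i g hg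
    exact not_lt.1 (h i g hg)

theorem trunc_ge {ι : Type} {c c' : ℤ} (hc : c' ≤ c) {v : ι → MonoidAlgebra k Γ} (h : Ge ψ c v) :
    res (Lt ψ c') v = 0 := res_eq_zero ((ge_iff_W ψ).1 (h.mono hc))

theorem sub_trunc {ι : Type} (c : ℤ) (v : ι → MonoidAlgebra k Γ) :
    Ge ψ c (v - res (Lt ψ c) v) := (ge_iff_W ψ).2 (sub_res_mem _ v)

end Vale.Agent.P260.H932
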