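import Mathlib
import Vale.Agent.P260.H932.Win
import Vale.Agent.P260.H573.FolSub

/-!
# P260 climb, M8: windows and the upper bound
-/

namespace Vale.Agent.P260.H932

open MonoidAlgebra Vale.Agent.P260.H493

open scoped Pointwise Classical

variable {k Γ : Type} [Field k] [Group Γ] (ψ : Γ →* Multiplicative ℤ) (t : Γ)

/-- window: degrees in `[p, q)`, the part of degree 0 in `M` -/
def Sl (M : Set Γ) (p q : ℤ) : Set Γ :=
  {x | p ≤ deg ψ x ∧ deg ψ x < q ∧ x * t ^ (-deg ψ x) ∈ M}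

/-- a finite version -/
noncomputable def SlF (M : Finset Γ) (p q : ℤ) : Finset Γ :=
  (M ×ˢ Finset.Ico p q).image fun x => x.1 * t ^ x.2

theorem sl_sub (M : Finset Γ) (p q : ℤ) : Sl ψ t (M : Set Γ) p q ⊆ (SlF t M p q : Set Γ) := by
  rintro x ⟨h1, h2, h3⟩
  rw [SlF, Finset.coe_image]
  refine ⟨(x * t ^ (-deg ψ x), deg ψ x), ?_, by simp⟩
  simpa using ⟨by simpa using h3, h1, h2⟩

theorem card_SlF (M : Finset Γ) (p q : ℤ) : (SlF t M p q).card ≤ M.card * (q - p).toNat := by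
  refine Finset.card_image_le.trans ?_
  rw [Finset.card_product, Int.card_Ico]

variable {ψ t}

theorem Sl.mono {M M' : Set Γ} {p p' q q' : ℤ} (hM : M ⊆ M') (hp : p' ≤ p) (hq : q ≤ q') :
    Sl ψ t M p q ⊆ Sl ψ t M' p' q' := by
  rintro x ⟨h1, h2, h3⟩
  exact ⟨by omega, by omega, hM h3⟩

theorem Sl.mul {M : Set Γ} {Λ : Set Γ} {p q p' q' : ℤ} {x s : Γ} (hx : x ∈ Sl ψ t M p q)
    (hΛ : ∀ i, p ≤ i → i < q → t ^ i * s * t ^ (-(i + deg ψ s)) ∈ Λ)
    (hp : p' ≤ deg ψ x + deg ψ s) (hq : deg ψ x + deg ψ s < q') : x * s ∈ Sl ψ t (M * Λ) p' q' := by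
  obtain ⟨h1, h2, h3⟩ := hx
  refine ⟨by rw [deg_mul]; exact hp, by rw [deg_mul]; exact hq, ?_⟩
  refine ⟨_, h3, _, hΛ _ h1 h2, ?_⟩
  rw [deg_mul]
  group

/-- Folner windows in the kernel, with multiplication on the right -/
theorem fol (hF : Vale.Agent.P260.Folner Γ) (Λ : Finset Γ) (hΛ : ∀ x ∈ Λ, deg ψ x = 0) (n : ℕ) :
    ∃ M : Finset Γ, M.Nonempty ∧ (∀ x ∈ M, deg ψ x = 0) ∧
      (M * Λ).card * n ≤ M.card * (n + 1) := by
  have hker : ∀ x : Γ, x ∈ ψ.ker ↔ deg ψ x = 0 := by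
    intro x
    rw [MonoidHom.mem_ker]
    constructor
    · intro h; simp [deg, h]
    · intro h
      have : Multiplicative.toAdd (ψ x) = Multiplicative.toAdd 1 := by simpa [deg] using h
      exact Multiplicative.toAdd.injective this
  have hF' : Vale.Agent.P260.F.Folner Γ := fun E ε hε => hF E ε hε
  let inst : DecidableEq ψ.ker := fun a b => Classical.propDecidable (a = b)
  obtain ⟨ε, hε0, hε⟩ : ∃ ε : ℝ, 0 < ε ∧ (Λ.card : ℝ) * ε * n ≤ 1 := by
    refine ⟨1 / ((Λ.card + 1) * (n + 1)), by positivity, ?_⟩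
    have h1 : (0 : ℝ) < (Λ.card + 1) * (n + 1) := by positivity
    rw [mul_one_div, div_mul_eq_mul_div, div_le_one h1]
    nlinarith [(Nat.cast_nonneg Λ.card : (0 : ℝ) ≤ Λ.card), (Nat.cast_nonneg n : (0 : ℝ) ≤ n)]
  let g0 : {x // x ∈ Λ} → ψ.ker := fun x =>
    ⟨x.1⁻¹, (hker _).2 (by rw [deg_inv, hΛ _ x.2, neg_zero])⟩
  obtain ⟨F, hFn, hFE⟩ := hF'.subgroup ψ.ker (Λ.attach.image g0) ε hε0
  let f : ψ.ker → Γ := fun x => (x : Γ)⁻¹
  have hf : Function.Injective f := fun x y h => Subtype.ext (inv_injective h)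
  refine ⟨F.image f, hFn.image _, ?_, ?_⟩
  · intro x hx
    obtain ⟨y, -, rfl⟩ := Finset.mem_image.1 hx
    simp only [f, deg_inv, (hker _).1 y.2, neg_zero]
  · have hcard : (F.image f).card = F.card := Finset.card_image_of_injective _ hf
    have h1 : ∀ x ∈ Λ, ((((F.image f) * {x}) \ (F.image f)).card : ℝ) ≤ ε * F.card := by
      intro x hx
      have hx' : x⁻¹ ∈ ψ.ker := (hker _).2 (by rw [deg_inv, hΛ _ hx, neg_zero])
      have := hFE ⟨x⁻¹, hx'⟩ (by
        rw [Finset.mem_image]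
        exact ⟨⟨x, hx⟩, Finset.mem_attach _ _, rfl⟩)
      refine le_trans ?_ this
      rw [Nat.cast_le]
      have h2 : ((F.image f) * {x}) \ (F.image f) ⊆
          (F.image (⟨x⁻¹, hx'⟩ * ·) \ F).image f := by
        intro y hy
        rw [Finset.mem_sdiff, Finset.mem_mul] at hy
        obtain ⟨⟨z, hz, x', hx'', rfl⟩, hy2⟩ := hy
        rw [Finset.mem_singleton] at hx''
        subst hx''
        obtain ⟨w, hw, rfl⟩ := Finset.mem_image.1 hz
        rw [Finset.mem_image]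
        refine ⟨⟨x'⁻¹, hx'⟩ * w, ?_, by simp [f]⟩
        rw [Finset.mem_sdiff]
        refine ⟨Finset.mem_image_of_mem _ hw, fun h => hy2 ?_⟩
        rw [Finset.mem_image]
        exact ⟨_, h, by simp [f]⟩
      exact (Finset.card_le_card h2).trans Finset.card_image_le
    have h3 : ((F.image f * Λ).card : ℝ) ≤ F.card + Λ.card * (ε * F.card) := by
      have h4 : F.image f * Λ ⊆ F.image f ∪
          Λ.biUnion fun x => ((F.image f) * {x}) \ (F.image f) := by
        intro y hy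
        obtain ⟨z, hz, w, hw, rfl⟩ := Finset.mem_mul.1 hy
        by_cases h : z * w ∈ F.image f
        · exact Finset.mem_union_left _ h
        · refine Finset.mem_union_right _ ?_
          rw [Finset.mem_biUnion]
          refine ⟨w, hw, ?_⟩
          rw [Finset.mem_sdiff]
          exact ⟨Finset.mul_mem_mul hz (Finset.mem_singleton_self _), h⟩
      have h5 := (Finset.card_le_card h4).trans (Finset.card_union_le _ _)
      have h6 : ((Λ.biUnion fun x => ((F.image f) * {x}) \ (F.image f)).card : ℝ) ≤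
          Λ.card * (ε * F.card) := by
        refine le_trans (Nat.cast_le.2 Finset.card_biUnion_le) ?_
        push_cast
        refine (Finset.sum_le_sum h1).trans ?_
        rw [Finset.sum_const, nsmul_eq_mul]
      calc ((F.image f * Λ).card : ℝ) ≤ ((F.image f).card +
            (Λ.biUnion fun x => ((F.image f) * {x}) \ (F.image f)).card : ℕ) := by
            exact_mod_cast h5
        _ ≤ F.card + Λ.card * (ε * F.card) := by
            push_cast
            rw [hcard]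
            linarith
    have h7 : (((F.image f * Λ).card * n : ℕ) : ℝ) ≤ (((F.image f).card * (n + 1) : ℕ) : ℝ) := by
      push_cast
      rw [hcard]
      have h8 : ((F.image f * Λ).card : ℝ) * n ≤ (F.card + Λ.card * (ε * F.card)) * n :=
        mul_le_mul_of_nonneg_right h3 (Nat.cast_nonneg _)
      have h9 : (Λ.card * (ε * F.card)) * n = (Λ.card * ε * n) * (F.card : ℝ) := by ring
      have h10 : (Λ.card * ε * n) * (F.card : ℝ) ≤ 1 * F.card :=
        mul_le_mul_of_nonneg_right hε (Nat.cast_nonneg _)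
      nlinarith
    exact_mod_cast h7

/-- a linear map, over `k` -/
noncomputable def kl {ι κ : Type} (T : (ι → MonoidAlgebra k Γ) →ₗ[MonoidAlgebra k Γ] (κ → MonoidAlgebra k Γ)) :
    (ι → MonoidAlgebra k Γ) →ₗ[k] (κ → MonoidAlgebra k Γ) where
  toFun := T
  map_add' := T.map_add
  map_smul' := map_k_smul T

@[simp] theorem kl_apply {ι κ : Type}
    (T : (ι → MonoidAlgebra k Γ) →ₗ[MonoidAlgebra k Γ] (κ → MonoidAlgebra k Γ)) (v) :
    kl T v = T v := rfl

theorem upper (hF : Vale.Agent.P260.Folner Γ) (ht : deg ψ t = 1) {a b c : ℕ}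
    (D : (Fin a → MonoidAlgebra k Γ) →ₗ[MonoidAlgebra k Γ] (Fin b → MonoidAlgebra k Γ))
    (D' : (Fin b → MonoidAlgebra k Γ) →ₗ[MonoidAlgebra k Γ] (Fin c → MonoidAlgebra k Γ))
    (hex : ∀ v, D' v = 0 → ∃ w, D w = v) (γ : ℕ)
    (hD : ∀ s ∈ Qs D, |deg ψ s| ≤ γ) (hD' : ∀ s ∈ Qs D', |deg ψ s| ≤ γ)
    (e : (Fin b → MonoidAlgebra k Γ) →ₗ[MonoidAlgebra k Γ] (Fin b → MonoidAlgebra k Γ))
    (he : Shift ψ (-γ) e) (J : ℕ) (h1 : Shift ψ (J + 2 * γ) (e ∘ₗ D)) (h2 : Shift ψ J (D' ∘ₗ e))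
    (h3 : Shift ψ J (e ∘ₗ e - e)) :
    ∃ M : Finset Γ, M.Nonempty ∧ (∀ x ∈ M, deg ψ x = 0) ∧
      Module.finrank k ((W k (Fin b) (Sl ψ t M 0 J)).map (res (Lt ψ J) ∘ₗ kl e)) ≤
        M.card * (4 * γ * c + b + 10 * γ * b) := by
  -- the finite set of degree 0
  let R : ℤ := J + 3 * γ
  let Q : Finset Γ := Qs D ∪ Qs D' ∪ Qs e ∪ (Qs D)⁻¹
  let Λ : Finset Γ := insert 1 ((Finset.Icc (-R) R ×ˢ Q).image
    fun x => t ^ x.1 * x.2 * t ^ (-(x.1 + deg ψ x.2)))
  have hΛ1 : (1 : Γ) ∈ Λ := Finset.mem_insert_self _ _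
  have hΛ0 : ∀ x ∈ Λ, deg ψ x = 0 := by
    intro x hx
    rcases Finset.mem_insert.1 hx with rfl | hx
    · simp
    · obtain ⟨⟨i, s⟩, -, rfl⟩ := Finset.mem_image.1 hx
      simp only [deg_mul, deg_zpow, ht]
      ring
  have hΛ : ∀ s ∈ Q, ∀ i, -R ≤ i → i < R → t ^ i * s * t ^ (-(i + deg ψ s)) ∈ (Λ : Set Γ) := by
    intro s hs i hi hi'
    rw [Finset.mem_coe]
    refine Finset.mem_insert_of_mem (Finset.mem_image.2 ⟨(i, s), ?_, rfl⟩)
    simp only [Finset.mem_product, Finset.mem_Icc]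
    exact ⟨⟨hi, hi'.le⟩, hs⟩
  have hQD : ∀ s ∈ Qs D, s ∈ Q := fun s hs => by simp [Q, hs]
  have hQD' : ∀ s ∈ Qs D', s ∈ Q := fun s hs => by simp [Q, hs]
  have hQe : ∀ s ∈ Qs e, s ∈ Q := fun s hs => by simp [Q, hs]
  have hQi : ∀ s ∈ Qs D, s⁻¹ ∈ Q := fun s hs => by simp [Q, hs]
  -- Folner sets
  obtain ⟨M, hMn, hM0, hMc⟩ := fol (ψ := ψ) hF (Λ * Λ * Λ) (by
    intro x hx
    obtain ⟨y, hy, z, hz, rfl⟩ := Finset.mem_mul.1 hx
    obtain ⟨y', hy', z', hz', rfl⟩ := Finset.mem_mul.1 hy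
    rw [deg_mul, deg_mul, hΛ0 _ hz, hΛ0 _ hy', hΛ0 _ hz']; rfl) (J + 5 * γ + 1)
  refine ⟨M, hMn, hM0, ?_⟩
  set M1 : Finset Γ := M * Λ with hM1
  set M2 : Finset Γ := M1 * Λ with hM2
  set M3 : Finset Γ := M2 * Λ with hM3
  have h01 : M ⊆ M1 := Finset.subset_mul_left _ hΛ1
  have h12 : M1 ⊆ M2 := Finset.subset_mul_left _ hΛ1
  have h23 : M2 ⊆ M3 := Finset.subset_mul_left _ hΛ1
  have hMc' : M3.card * (J + 5 * γ + 1) ≤ M.card * (J + 5 * γ + 1 + 1) := by
    have : M3 = M * (Λ * Λ * Λ) := by rw [hM3, hM2, hM1, mul_assoc, mul_assoc, mul_assoc]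
    rw [this]; exact hMc
  have c01 := Finset.card_le_card h01
  have c12 := Finset.card_le_card h12
  have c23 := Finset.card_le_card h23
  have hM3le : M3.card ≤ 2 * M.card := by nlinarith
  set I := (W k (Fin b) (Sl ψ t (M : Set Γ) 0 J)).map (res (Lt ψ J) ∘ₗ kl e) with hI
  -- a description of the elements of I
  have hIel : ∀ w ∈ I, ∃ v H, Ge ψ 0 v ∧ Ge ψ J H ∧ w = e v - H ∧
      res (Lt ψ ((J : ℤ) - γ)) w = res (Lt ψ ((J : ℤ) - γ)) (e v) := by
    rintro w ⟨v, hv, rfl⟩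
    refine ⟨v, e v - res (Lt ψ J) (e v), fun i g hg => (hv i g hg).1, sub_trunc ψ _ _, ?_, ?_⟩
    · simp
    · have : (res (Lt ψ J) ∘ₗ kl e) v = e v - (e v - res (Lt ψ J) (e v)) := by simp
      rw [this, map_sub, trunc_ge (c := J) ψ (by omega) (sub_trunc ψ _ _), sub_zero]
  have hI1 : I ≤ W k (Fin b) (Sl ψ t (M1 : Set Γ) (-γ) J) := by
    rintro w ⟨v, hv, rfl⟩
    have hv' : Ge ψ (0 + -γ) (e v) := he 0 v fun i g hg => (hv i g hg).1
    have h4 := res_mem' (Lt ψ J) _ (map_W e hv)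
    intro i g hg
    obtain ⟨⟨x, hx, s, hs, rfl⟩, hlt⟩ := h4 i g hg
    have hge : (0 : ℤ) + -γ ≤ deg ψ (x * s) := by
      refine hv' i _ ?_
      intro h0
      apply hg
      simp [res_coeff, h0]
    have hlt' : deg ψ (x * s) < J := hlt
    rw [deg_mul] at hge hlt'
    rw [hM1, Finset.coe_mul]
    exact Sl.mul hx (fun i hi hi' => hΛ s (hQe s hs) i (by omega) (by omega)) (by omega) (by omega)
  have hIfin : Module.Finite k I := by
    have := finite_W (k := k) (Fin b) (SlF t M1 (-γ) J)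
    exact Submodule.finiteDimensional_of_le (hI1.trans (W_mono (sl_sub ψ t M1 _ _)))
  -- (a) the image under D'
  have hA : I.map (kl D') ≤ W k (Fin c) (Sl ψ t (M2 : Set Γ) (J - γ) (J + γ)) := by
    rintro _ ⟨w, hw, rfl⟩
    obtain ⟨v, H, hv, hH, hwv, -⟩ := hIel w hw
    have h4 : Ge ψ (J - γ) (D' w) := by
      rw [hwv, map_sub]
      refine Ge.sub ((h2 0 v hv).mono (by omega)) ?_
      have h5 : Shift ψ (-γ) D' := shift_of_basis fun j i g hg => by
        have := hD' g ((mem_Qs D' g).2 ⟨j, i, hg⟩)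
        rw [abs_le] at this
        exact this.1
      exact (h5 J H hH).mono (by omega)
    have h5 := map_W D' (hI1 hw)
    intro i g hg
    obtain ⟨x, hx, s, hs, rfl⟩ := h5 i g hg
    have h6 := h4 i _ hg
    rw [deg_mul] at h6
    have h7 := abs_le.1 (hD' s hs)
    have h8 := hx.2.1
    rw [hM2, Finset.coe_mul]
    exact Sl.mul hx (fun i hi hi' => hΛ s (hQD' s hs) i (by omega) (by omega)) (by omega) (by omega)
  have hA' : Module.finrank k (I.map (kl D')) ≤ c * (M2.card * (2 * γ)) := by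
    refine (finrank_le_W (Fin c) (SlF t M2 (J - γ) (J + γ)) _
      (hA.trans (W_mono (sl_sub ψ t M2 _ _)))).trans ?_
    rw [Fintype.card_fin]
    refine Nat.mul_le_mul_left _ ((card_SlF t M2 _ _).trans (Nat.mul_le_mul_left _ ?_))
    omega
  -- (b) the kernel
  set I2 := I ⊓ LinearMap.ker (kl D') with hI2
  have hI2fin : Module.Finite k I2 := Submodule.finiteDimensional_of_le inf_le_left
  let err : Finset Γ := SlF t (M3 \ M1) (-3 * γ) (J + 2 * γ) ∪ SlF t M1 (-3 * γ) (-γ) ∪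
    SlF t M1 J (J + 2 * γ)
  have herr : err.card ≤ (M3.card - M1.card) * (J + 5 * γ) + M1.card * (2 * γ) +
      M1.card * (2 * γ) := by
    refine (Finset.card_union_le _ _).trans (Nat.add_le_add ((Finset.card_union_le _ _).trans
      (Nat.add_le_add ?_ ?_)) ?_)
    · refine (card_SlF t _ _ _).trans (Nat.mul_le_mul ?_ (by omega))
      rw [Finset.card_sdiff_of_subset (h12.trans h23)]
    · exact (card_SlF t _ _ _).trans (Nat.mul_le_mul le_rfl (by omega))
    · exact (card_SlF t _ _ _).trans (Nat.mul_le_mul le_rfl (by omega))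
  have hB : I2.map (res (Lt ψ ((J : ℤ) - γ))) ≤
      (W k (Fin b) (err : Set Γ)).map (res (Lt ψ ((J : ℤ) - γ)) ∘ₗ kl e) := by
    rintro _ ⟨w, ⟨hw, hwD⟩, rfl⟩
    obtain ⟨v, H, hv, hH, hwv, hwv2⟩ := hIel w hw
    obtain ⟨u, hu⟩ := hex w hwD
    set u' := res (Sl ψ t (M2 : Set Γ) (-2 * γ) (J + γ)) u with hu'
    have hw1 := hI1 hw
    have hr : D u' - w ∈ W k (Fin b) (err : Set Γ) := by
      have h4 : u' - u ∈ W k (Fin a) (Sl ψ t (M2 : Set Γ) (-2 * γ) (J + γ))ᶜ := by
        have := Submodule.neg_mem _ (sub_res_mem (Sl ψ t (M2 : Set Γ) (-2 * γ) (J + γ)) u)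
        rwa [neg_sub] at this
      have h5 : D u' - w ∈ W k (Fin b)
          ((Sl ψ t (M2 : Set Γ) (-2 * γ) (J + γ))ᶜ * (Qs D : Set Γ)) := by
        rw [← hu, ← map_sub]
        exact map_W D h4
      have h6 : D u' - w ∈ W k (Fin b) (Sl ψ t (M3 : Set Γ) (-3 * γ) (J + 2 * γ)) := by
        refine Submodule.sub_mem _ ?_ ?_
        · have h7 := map_W D (res_mem (Sl ψ t (M2 : Set Γ) (-2 * γ) (J + γ)) u)
          intro i g hg
          obtain ⟨x, hx, s, hs, rfl⟩ := h7 i g hg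
          have h8 := abs_le.1 (hD s hs)
          have h9 := hx.1
          have h10 := hx.2.1
          rw [hM3, Finset.coe_mul]
          exact Sl.mul hx (fun i hi hi' => hΛ s (hQD s hs) i (by omega) (by omega))
            (by omega) (by omega)
        · exact W_mono (Sl.mono (by exact_mod_cast h12.trans h23) (by omega) (by omega)) hw1
      intro i g hg
      have hg3 := h6 i g hg
      have hg1 : g ∉ Sl ψ t (M1 : Set Γ) (-γ) J := by
        intro hg1
        obtain ⟨x, hx, s, hs, hxs⟩ := h5 i g hg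
        apply hx
        have h8 := abs_le.1 (hD s hs)
        have h9 := hg1.1
        have h10 := hg1.2.1
        have hxe : x = g * s⁻¹ := by rw [← hxs]; simp
        rw [hxe, hM2, Finset.coe_mul]
        exact Sl.mul hg1 (fun i hi hi' => hΛ s⁻¹ (hQi s hs) i (by omega) (by omega))
          (by rw [deg_inv]; omega) (by rw [deg_inv]; omega)
      rw [Finset.mem_coe]
      obtain ⟨g1, g2, g3⟩ := hg3
      by_cases hgM : g * t ^ (-deg ψ g) ∈ M1
      · by_cases hgl : deg ψ g < -γ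
        · refine Finset.mem_union_left _ (Finset.mem_union_right _ ?_)
          exact sl_sub ψ t M1 _ _ ⟨g1, hgl, hgM⟩
        · refine Finset.mem_union_right _ ?_
          refine sl_sub ψ t M1 _ _ ⟨?_, g2, hgM⟩
          by_contra hgJ
          exact hg1 ⟨by omega, by omega, hgM⟩
      · refine Finset.mem_union_left _ (Finset.mem_union_left _ ?_)
        refine sl_sub ψ t (M3 \ M1) _ _ ⟨g1, g2, ?_⟩
        rw [Finset.coe_sdiff]
        exact ⟨g3, hgM⟩
    refine ⟨w - D u', ?_, ?_⟩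
    · rw [← neg_sub]; exact Submodule.neg_mem _ hr
    · -- res e (w - D u') = res w
      rw [LinearMap.comp_apply, map_sub, map_sub, kl_apply, kl_apply]
      have h4 : res (Lt ψ ((J : ℤ) - γ)) (e (D u')) = 0 := by
        have hu'' : Ge ψ (-2 * γ) u' := fun i g hg =>
          (res_mem (Sl ψ t (M2 : Set Γ) (-2 * γ) (J + γ)) u i g hg).1
        exact trunc_ge ψ (by omega) (h1 _ _ hu'')
      rw [h4, sub_zero, hwv2]
      have h5 : e w = e v + ((e ∘ₗ e - e) v - e H) := by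
        rw [hwv, map_sub]
        simp only [LinearMap.sub_apply, LinearMap.comp_apply]
        abel
      rw [h5, map_add]
      have h6 : Ge ψ (J - γ) ((e ∘ₗ e - e) v - e H) := by
        refine Ge.sub ((h3 0 v hv).mono (by omega)) ((he _ _ hH).mono (by omega))
      rw [trunc_ge ψ (by omega) h6, add_zero]
  have hB' := finrank_map_W (Fin b) err _ _ hB
  have hC : I2 ⊓ LinearMap.ker (res (Lt ψ ((J : ℤ) - γ))) ≤
      W k (Fin b) (SlF t M1 (J - γ) J : Set Γ) := by
    rintro w ⟨⟨hw, -⟩, hw2⟩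
    refine W_mono (sl_sub ψ t M1 _ _) ?_
    have h4 := hI1 hw
    have h5 : Ge ψ (J - γ) w := by
      have := sub_trunc ψ ((J : ℤ) - γ) w
      rw [LinearMap.mem_ker.1 hw2, sub_zero] at this
      exact this
    intro i g hg
    exact ⟨h5 i g hg, (h4 i g hg).2.1, (h4 i g hg).2.2⟩
  have hC' := finrank_le_W (Fin b) (SlF t M1 (J - γ) J) _ hC
  have hC'' : (SlF t M1 ((J : ℤ) - γ) J).card ≤ M1.card * γ :=
    (card_SlF t M1 _ _).trans (Nat.mul_le_mul_left _ (by omega))
  have e1 := finrank_split I (kl D')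
  rw [← hI2] at e1
  have e2 := finrank_split I2 (res (Lt ψ ((J : ℤ) - γ)))
  rw [Fintype.card_fin] at hB' hC'
  have e3 : Module.finrank k I ≤ c * (M2.card * (2 * γ)) + (b * err.card + b * (M1.card * γ)) := by
    have := Nat.mul_le_mul_left b hC''
    omega
  refine e3.trans ?_
  have f1 : c * (M2.card * (2 * γ)) ≤ M.card * (4 * γ * c) := by
    have : M2.card ≤ 2 * M.card := by omega
    calc c * (M2.card * (2 * γ)) ≤ c * ((2 * M.card) * (2 * γ)) := by gcongr
      _ = M.card * (4 * γ * c) := by ring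
  have f2 : (M3.card - M1.card) * (J + 5 * γ) ≤ M.card := by
    obtain ⟨x, hx⟩ := Nat.exists_eq_add_of_le (c01.trans (c12.trans c23))
    have hx1 : M3.card - M1.card ≤ x := by omega
    have hx2 : x * (J + 5 * γ + 1) ≤ M.card := by
      rw [hx] at hMc'
      nlinarith
    calc (M3.card - M1.card) * (J + 5 * γ) ≤ x * (J + 5 * γ + 1) :=
          Nat.mul_le_mul hx1 (by omega)
      _ ≤ M.card := hx2
  have f3 : M1.card * (2 * γ) ≤ M.card * (4 * γ) := by
    have : M1.card ≤ 2 * M.card := by omega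
    calc M1.card * (2 * γ) ≤ (2 * M.card) * (2 * γ) := by gcongr
      _ = M.card * (4 * γ) := by ring
  have f4 : b * err.card ≤ M.card * (b + 8 * γ * b) := by
    calc b * err.card ≤ b * (M.card + M.card * (4 * γ) + M.card * (4 * γ)) := by
          gcongr; omega
      _ = M.card * (b + 8 * γ * b) := by ring
  have f5 : b * (M1.card * γ) ≤ M.card * (2 * γ * b) := by
    have : M1.card ≤ 2 * M.card := by omega
    calc b * (M1.card * γ) ≤ b * ((2 * M.card) * γ) := by gcongr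
      _ = M.card * (2 * γ * b) := by ring
  calc c * (M2.card * (2 * γ)) + (b * err.card + b * (M1.card * γ)) ≤
      M.card * (4 * γ * c) + (M.card * (b + 8 * γ * b) + M.card * (2 * γ * b)) := by
        gcongr
    _ = M.card * (4 * γ * c + b + 10 * γ * b) := by ring

end Vale.Agent.P260.H932
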