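import Mathlib
import Vale.Agent.P260.H932.Up

/-!
# P260 climb, M8: the lower bound for the rank
-/

namespace Vale.Agent.P260.H932

open MonoidAlgebra Vale.Agent.P260.H493

open scoped Pointwise Classical

variable {k Γ : Type} [Field k] [Group Γ] {ψ : Γ →* Multiplicative ℤ} {t : Γ}

/-- triangular systems are independent -/
theorem tri {V : Type} [AddCommGroup V] [Module k V] (I : Submodule k V) [Module.Finite k I]
    {G : Type} (X : Finset G) (d : G → ℤ) (v : G → V) (hv : ∀ x ∈ X, v x ∈ I) (l : G → V →ₗ[k] k)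
    (h1 : ∀ x ∈ X, l x (v x) ≠ 0)
    (h2 : ∀ x ∈ X, ∀ y ∈ X, l y (v x) ≠ 0 → x = y ∨ d x < d y) :
    X.card ≤ Module.finrank k I := by
  have hli : LinearIndependent k (fun x : X => (⟨v x.1, hv x.1 x.2⟩ : I)) := by
    rw [Fintype.linearIndependent_iff]
    intro g hg
    by_contra hne
    push Not at hne
    obtain ⟨x0, hx0⟩ := hne
    obtain ⟨y, hy, hmin⟩ := Finset.exists_min_image
      (Finset.univ.filter fun x : X => g x ≠ 0) (fun x => d x.1) ⟨x0, by simp [hx0]⟩
    rw [Finset.mem_filter] at hy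
    have h3 : ∑ x : X, g x • l y.1 (v x.1) = 0 := by
      have h4 : ((∑ x : X, g x • (⟨v x.1, hv x.1 x.2⟩ : I) : I) : V) = 0 := by rw [hg]; rfl
      have h5 : ((∑ x : X, g x • (⟨v x.1, hv x.1 x.2⟩ : I) : I) : V) = ∑ x : X, g x • v x.1 := by
        rw [Submodule.coe_sum]
        rfl
      rw [h5] at h4
      have h6 := congrArg (l y.1) h4
      rw [map_sum, map_zero] at h6
      simpa using h6
    have h7 : ∑ x : X, g x • l y.1 (v x.1) = g y • l y.1 (v y.1) := by
      refine Finset.sum_eq_single y ?_ (by simp)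
      intro x _ hxy
      by_cases hz : l y.1 (v x.1) = 0
      · rw [hz, smul_zero]
      · rcases h2 x.1 x.2 y.1 y.2 hz with h8 | h8
        · exact absurd (Subtype.ext h8) hxy
        · by_cases hgx : g x = 0
          · rw [hgx, zero_smul]
          · have := hmin x (by simp [hgx])
            omega
    rw [h7, smul_eq_mul] at h3
    rcases mul_eq_zero.1 h3 with h | h
    · exact hy.2 h
    · exact h1 y.1 y.2 h
  have := hli.fintype_card_le_finrank
  rwa [Fintype.card_coe] at this

/-- a coefficient, as a linear functional -/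
noncomputable def cf (k : Type) [Field k] {ι : Type} (i : ι) (g : Γ) :
    (ι → MonoidAlgebra k Γ) →ₗ[k] k where
  toFun v := (v i).coeff g
  map_add' v w := by simp
  map_smul' r v := by simp

/-- a set without conflicts -/
def NoC (B : Finset Γ) (p : Γ) (X : Finset Γ) : Prop :=
  ∀ x ∈ X, ∀ y ∈ X, x ≠ y → x⁻¹ * y * p ∉ B

theorem lower (ht : deg ψ t = 1) {b : ℕ}
    (e : (Fin b → MonoidAlgebra k Γ) →ₗ[MonoidAlgebra k Γ] (Fin b → MonoidAlgebra k Γ))
    (β i : Fin b) (c₀ : ℤ) (B : Finset Γ) (p : Γ) (hp : p ∈ B) (hB : ∀ g ∈ B, deg ψ g = c₀)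
    (h1 : ∀ g, (e (Pi.single β 1) i).coeff g ≠ 0 → c₀ ≤ deg ψ g)
    (h2 : ∀ g, deg ψ g = c₀ → ((e (Pi.single β 1) i).coeff g ≠ 0 ↔ g ∈ B))
    (M : Finset Γ) (hM : ∀ x ∈ M, deg ψ x = 0) (J : ℕ) :
    M.card * (J - c₀.natAbs) ≤ (1 + 2 * B.card) *
      Module.finrank k ((W k (Fin b) (Sl ψ t (M : Set Γ) 0 J)).map (res (Lt ψ J) ∘ₗ kl e)) := by
  set E : Finset Γ := (M ×ˢ Finset.Ico (0 : ℤ) ((J - c₀.natAbs : ℕ) : ℤ)).image
    fun x => x.1 * t ^ x.2 with hE
  have hEcard : E.card = M.card * (J - c₀.natAbs) := by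
    rw [hE, Finset.card_image_of_injOn, Finset.card_product, Int.card_Ico]
    · simp
    · rintro ⟨x, j⟩ hx ⟨y, l⟩ hy h
      simp only [Finset.coe_product, Set.mem_prod, Finset.mem_coe] at hx hy
      simp only at h
      have h3 := congrArg (deg ψ) h
      rw [deg_mul, deg_mul, deg_zpow, deg_zpow, hM _ hx.1, hM _ hy.1, ht] at h3
      have h4 : j = l := by omega
      subst h4
      have h5 : x = y := mul_right_cancel h
      rw [h5]
  have hEmem : ∀ x ∈ E, 0 ≤ deg ψ x ∧ deg ψ x < ((J - c₀.natAbs : ℕ) : ℤ) ∧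
      x * t ^ (-deg ψ x) ∈ M := by
    intro x hx
    obtain ⟨⟨y, j⟩, hy, rfl⟩ := Finset.mem_image.1 hx
    simp only [Finset.mem_product, Finset.mem_Ico] at hy
    have h3 : deg ψ (y * t ^ j) = j := by rw [deg_mul, deg_zpow, hM _ hy.1, ht]; ring
    simp only at h3 ⊢
    rw [h3]
    refine ⟨hy.2.1, hy.2.2, ?_⟩
    have : y * t ^ j * t ^ (-j) = y := by group
    rw [this]
    exact hy.1
  -- a maximal set without conflicts
  obtain ⟨X, hX, hmax⟩ := Finset.exists_max_image
    (E.powerset.filter fun X => NoC B p X) Finset.card ⟨∅, by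
      rw [Finset.mem_filter, Finset.mem_powerset]
      exact ⟨Finset.empty_subset _, fun x hx => absurd hx (Finset.notMem_empty _)⟩⟩
  rw [Finset.mem_filter, Finset.mem_powerset] at hX
  obtain ⟨hXE, hXB⟩ := hX
  have hcover : E ⊆ (X ∪ X * B.image (· * p⁻¹)) ∪ X * B.image (fun g => p * g⁻¹) := by
    intro y hy
    by_contra hcon
    rw [Finset.mem_union, Finset.mem_union] at hcon
    push Not at hcon
    obtain ⟨⟨n1, n2⟩, n3⟩ := hcon
    have h3 := hmax (insert y X) (by
      rw [Finset.mem_filter, Finset.mem_powerset]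
      refine ⟨Finset.insert_subset hy hXE, ?_⟩
      intro x hx z hz hxz hB'
      rcases Finset.mem_insert.1 hx with hx1 | hx1
      · rcases Finset.mem_insert.1 hz with hz1 | hz1
        · exact hxz (hx1.trans hz1.symm)
        · apply n3
          rw [Finset.mem_mul]
          rw [hx1] at hB'
          refine ⟨z, hz1, _, Finset.mem_image_of_mem _ hB', ?_⟩
          group
      · rcases Finset.mem_insert.1 hz with hz1 | hz1
        · apply n2
          rw [Finset.mem_mul]
          rw [hz1] at hB'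
          refine ⟨x, hx1, _, Finset.mem_image_of_mem _ hB', ?_⟩
          group
        · exact hXB x hx1 z hz1 hxz hB')
    rw [Finset.card_insert_of_notMem n1] at h3
    omega
  have hEX : E.card ≤ X.card * (1 + 2 * B.card) := by
    refine (Finset.card_le_card hcover).trans ((Finset.card_union_le _ _).trans ?_)
    have h3 := Finset.card_union_le X (X * B.image (· * p⁻¹))
    have h4 : (X * B.image (· * p⁻¹)).card ≤ X.card * B.card :=
      Finset.card_mul_le.trans (Nat.mul_le_mul_left _ Finset.card_image_le)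
    have h5 : (X * B.image (fun g => p * g⁻¹)).card ≤ X.card * B.card :=
      Finset.card_mul_le.trans (Nat.mul_le_mul_left _ Finset.card_image_le)
    have h6 : X.card * (1 + 2 * B.card) = X.card + X.card * B.card + X.card * B.card := by ring
    omega
  -- independence
  have hfin := finite_W (k := k) (Fin b) (SlF t M 0 J)
  have hfin2 : Module.Finite k (W k (Fin b) (Sl ψ t (M : Set Γ) 0 J)) :=
    Submodule.finiteDimensional_of_le (W_mono (sl_sub ψ t M _ _))
  have hfin3 : Module.Finite k
      ((W k (Fin b) (Sl ψ t (M : Set Γ) 0 J)).map (res (Lt ψ J) ∘ₗ kl e)) := inferInstance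
  have hval : ∀ x y : Γ, y ∈ X → cf k i (y * p) ((res (Lt ψ J) ∘ₗ kl e)
      (single x (1 : k) • (Pi.single β 1 : Fin b → MonoidAlgebra k Γ))) =
      (e (Pi.single β 1) i).coeff (x⁻¹ * y * p) := by
    intro x y hy
    have h3 := (hEmem y (hXE hy)).2.1
    have h3' := (hEmem y (hXE hy)).1
    have h4 : y * p ∈ Lt ψ (J : ℤ) := by
      change deg ψ (y * p) < J
      rw [deg_mul, hB p hp]
      omega
    rw [LinearMap.comp_apply, kl_apply, e.map_smul]
    change ((res (Lt ψ (J : ℤ)) _) i).coeff (y * p) = _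
    rw [res_coeff, if_pos h4, Pi.smul_apply, smul_eq_mul, coeff_single_mul', one_mul, ← mul_assoc]
  have htri := tri ((W k (Fin b) (Sl ψ t (M : Set Γ) 0 J)).map (res (Lt ψ J) ∘ₗ kl e)) X (deg ψ)
    (fun x => (res (Lt ψ J) ∘ₗ kl e)
      (single x (1 : k) • (Pi.single β 1 : Fin b → MonoidAlgebra k Γ))) (by
      intro x hx
      refine Submodule.mem_map_of_mem ?_
      obtain ⟨g1, g2, g3⟩ := hEmem x (hXE hx)
      intro j g hg
      have hgx : g = x := by
        by_contra hne
        apply hg
        rw [Pi.smul_apply, smul_eq_mul, coeff_single_mul']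
        by_cases hj : j = β
        · subst hj
          rw [Pi.single_eq_same, one_def, coeff_single, Finsupp.single_apply, if_neg, mul_zero]
          intro h0
          apply hne
          have : x * (x⁻¹ * g) = x * 1 := by rw [← h0]
          simpa using this
        · simp [Pi.single_eq_of_ne hj]
      rw [hgx]
      exact ⟨g1, by omega, g3⟩)
    (fun y => cf k i (y * p)) (by
      intro x hx
      rw [hval x x hx, inv_mul_cancel, one_mul]
      exact (h2 p (hB p hp)).2 hp) (by
      intro x hx y hy h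
      rw [hval x y hy] at h
      by_cases hxy : x = y
      · exact Or.inl hxy
      · right
        have h3 := h1 _ h
        rw [deg_mul, deg_mul, deg_inv, hB p hp] at h3
        by_contra hlt
        have h4 : deg ψ x = deg ψ y := by omega
        refine hXB x hx y hy hxy ((h2 _ ?_).1 h)
        rw [deg_mul, deg_mul, deg_inv, hB p hp]
        omega)
  rw [← hEcard]
  calc E.card ≤ X.card * (1 + 2 * B.card) := hEX
    _ ≤ _ := by rw [mul_comm]; exact Nat.mul_le_mul_left _ htri

end Vale.Agent.P260.H932
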