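import Mathlib
import Vale.Agent.P260.H932.Low
import Vale.Agent.P260.H493.Spec

/-!
# P260 climb, M8: the rank argument
-/

namespace Vale.Agent.P260.H932

open MonoidAlgebra Vale.Agent.P260.H493

theorem stmtRK : StmtRK := by
  classical
  intro k Γ _ _ ψ a b c D D' hF hψ hex e hBd hCau hD hD' hee
  by_contra hnull
  obtain ⟨t, ht⟩ := exists_deg ψ hψ 1
  -- the maximal degree `c₀` up to which `e` vanishes eventually
  let P : ℤ → Prop := fun C => ∃ N, ∀ n ≥ N, Shift ψ C (e n)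
  have hPm : ∀ C C', C' ≤ C → P C → P C' := by
    rintro C C' h ⟨N, hN⟩
    exact ⟨N, fun n hn => (hN n hn).mono h⟩
  obtain ⟨C1, hC1⟩ := hBd
  have hnP : ∃ C2, ¬ P C2 := by
    by_contra hcon
    push Not at hcon
    exact hnull hcon
  obtain ⟨C2, hC2⟩ := hnP
  obtain ⟨c₀, ⟨N0, hN0⟩, hmax⟩ := Int.exists_greatest_of_bdd (P := P)
    ⟨C2, fun z hz => by
      by_contra h
      exact hC2 (hPm _ _ (by omega) hz)⟩ ⟨C1, 0, fun n _ => hC1 n⟩
  obtain ⟨N1, hN1⟩ := hCau (c₀ + 1)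
  set N := max N0 N1 with hN
  have hNN : ¬ Shift ψ (c₀ + 1) (e N) := by
    intro h
    have : P (c₀ + 1) := by
      refine ⟨N, fun n hn => ?_⟩
      have h2 := (hN1 n (le_trans (le_max_right _ _) hn) N (le_max_right _ _)).add h
      rwa [sub_add_cancel] at h2
    have := hmax _ this
    omega
  obtain ⟨β, hβ⟩ : ∃ β, ¬ Ge ψ (c₀ + 1) (e N (Pi.single β 1)) := by
    by_contra hcon
    push Not at hcon
    exact hNN (shift_of_basis hcon)
  obtain ⟨i, p, hp, hpd⟩ : ∃ i p, (e N (Pi.single β 1) i).coeff p ≠ 0 ∧ deg ψ p < c₀ + 1 := by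
    unfold Ge at hβ
    push Not at hβ
    exact hβ
  have hpd' : deg ψ p = c₀ := by
    have := (hN0 N (le_max_left _ _)).basis β i p hp
    omega
  set B : Finset Γ := (e N (Pi.single β 1) i).coeff.support.filter fun g => deg ψ g = c₀ with hB
  have hBmem : ∀ g, g ∈ B ↔ (e N (Pi.single β 1) i).coeff g ≠ 0 ∧ deg ψ g = c₀ := by
    intro g; rw [hB, Finset.mem_filter, Finsupp.mem_support_iff]
  -- the constant
  obtain ⟨γ, hγ1, hγ2, hγ3⟩ : ∃ γ : ℕ, (∀ s ∈ Qs D, |deg ψ s| ≤ γ) ∧ (∀ s ∈ Qs D', |deg ψ s| ≤ γ) ∧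
      -(γ : ℤ) ≤ C1 := by
    refine ⟨(∑ s ∈ Qs D, (deg ψ s).natAbs) + (∑ s ∈ Qs D', (deg ψ s).natAbs) + C1.natAbs, ?_, ?_, ?_⟩
    · intro s hs
      have := Finset.single_le_sum (f := fun s => (deg ψ s).natAbs) (fun _ _ => Nat.zero_le _) hs
      rw [Int.abs_eq_natAbs]
      omega
    · intro s hs
      have := Finset.single_le_sum (f := fun s => (deg ψ s).natAbs) (fun _ _ => Nat.zero_le _) hs
      rw [Int.abs_eq_natAbs]
      omega
    · omega
  let C3 : ℕ := 4 * γ * c + b + 10 * γ * b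
  let q : ℕ := 1 + 2 * B.card
  let J : ℕ := c₀.natAbs + (q * C3 + 1)
  obtain ⟨N2, hN2⟩ := hD (J + 2 * γ)
  obtain ⟨N3, hN3⟩ := hD' J
  obtain ⟨N4, hN4⟩ := hee J
  let n := N + N2 + N3 + N4
  have hnN : N ≤ n := by omega
  have h0N : N0 ≤ N := le_max_left _ _
  have h1N : N1 ≤ N := le_max_right _ _
  obtain ⟨M, hMn, hM0, hMle⟩ := upper (ψ := ψ) (t := t) hF ht D D' hex γ hγ1 hγ2 (e n)
    ((hC1 n).mono (by omega)) J (hN2 n (by omega)) (hN3 n (by omega)) (hN4 n (by omega))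
  have hlow := lower (ψ := ψ) ht (e n) β i c₀ B p ((hBmem p).2 ⟨hp, hpd'⟩)
    (fun g hg => ((hBmem g).1 hg).2)
    (fun g hg => (hN0 n (h0N.trans hnN)).basis β i g hg) (by
      intro g hg
      rw [hBmem]
      have h5 : (e n (Pi.single β 1) i).coeff g = (e N (Pi.single β 1) i).coeff g := by
        by_contra hne
        have h6 := (hN1 n (h1N.trans hnN) N h1N).basis β i g (by
          rw [LinearMap.sub_apply, Pi.sub_apply]
          simpa [sub_eq_zero] using hne)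
        omega
      rw [h5]
      exact ⟨fun h => ⟨h, hg⟩, fun h => h.1⟩) M hM0 J
  have h7 : M.card * (J - c₀.natAbs) ≤ q * (M.card * C3) :=
    hlow.trans (Nat.mul_le_mul_left _ hMle)
  have h8 : J - c₀.natAbs = q * C3 + 1 := by omega
  rw [h8] at h7
  have h9 : 0 < M.card := Finset.card_pos.2 hMn
  nlinarith

end Vale.Agent.P260.H932
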