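import Mathlib
import Vale.Agent.P260.H932.Win

/-!
# P260, W5: densities of subspaces; the letter of the key lemma
-/

namespace Vale.Agent.P260.H932

open MonoidAlgebra Module

open scoped Pointwise

variable {k Γ : Type} [Field k] [Group Γ]

/-- The set of all relative dimensions of `X` in finite windows. -/
def nuSet {ι : Type} (X : Submodule k (ι → MonoidAlgebra k Γ)) : Set ℝ :=
  {x | ∃ E : Finset Γ, E.Nonempty ∧
    x = (finrank k (X ⊓ W k ι (E : Set Γ) : Submodule k (ι → MonoidAlgebra k Γ)) : ℝ) / E.card}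

/-- The density of a subspace. -/
noncomputable def nu {ι : Type} (X : Submodule k (ι → MonoidAlgebra k Γ)) : ℝ := sSup (nuSet X)

open scoped Classical in
/-- `E` is nonempty and almost invariant under right translations by the elements of `K`. -/
def Fo (K : Finset Γ) (δ : ℝ) (E : Finset Γ) : Prop :=
  E.Nonempty ∧ ∀ s ∈ K, ((E.filter fun x => x * s ∉ E).card : ℝ) ≤ δ * E.card

/-- KEY for one map -/
def Key {ι κ : Type}
    (T : (κ → MonoidAlgebra k Γ) →ₗ[MonoidAlgebra k Γ] (ι → MonoidAlgebra k Γ)) : Prop :=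
  ∀ ε : ℝ, 0 < ε → ∃ (B K : Finset Γ) (δ : ℝ), 0 < δ ∧ ∀ E : Finset Γ, Fo K δ E →
    (nu (LinearMap.range (T.restrictScalars k)) - ε) * E.card ≤
      finrank k (W k ι (E : Set Γ) ⊓
        (W k κ ((E : Set Γ) * (B : Set Γ))).map (T.restrictScalars k) :
          Submodule k (ι → MonoidAlgebra k Γ))

theorem nuSet_bdd {ι : Type} [Fintype ι] (X : Submodule k (ι → MonoidAlgebra k Γ)) :
    BddAbove (nuSet X) := by
  refine ⟨Fintype.card ι, ?_⟩
  rintro x ⟨E, hE, rfl⟩
  have h1 : (0 : ℝ) < E.card := by exact_mod_cast hE.card_pos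
  rw [div_le_iff₀ h1]
  exact_mod_cast finrank_le_W ι E _ inf_le_right

/-- all windows -/
theorem le_nu {ι : Type} [Fintype ι] (X : Submodule k (ι → MonoidAlgebra k Γ)) (E : Finset Γ) :
    (finrank k (X ⊓ W k ι (E : Set Γ) : Submodule k (ι → MonoidAlgebra k Γ)) : ℝ) ≤
      nu X * E.card := by
  rcases E.eq_empty_or_nonempty with rfl | hE
  · have := finrank_le_W (k := k) ι (∅ : Finset Γ) (X ⊓ W k ι ((∅ : Finset Γ) : Set Γ)) inf_le_right
    rw [Finset.card_empty, mul_zero, Nat.le_zero] at this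
    rw [this]; simp
  · have h1 : (0 : ℝ) < E.card := by exact_mod_cast hE.card_pos
    rw [← div_le_iff₀ h1]
    exact le_csSup (nuSet_bdd X) ⟨E, hE, rfl⟩

theorem nu_nonneg {ι : Type} [Fintype ι] (X : Submodule k (ι → MonoidAlgebra k Γ)) : 0 ≤ nu X := by
  have h := le_nu X ({1} : Finset Γ)
  rw [Finset.card_singleton, Nat.cast_one, mul_one] at h
  exact le_trans (Nat.cast_nonneg _) h

end Vale.Agent.P260.H932
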