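import Mathlib
import Vale.Agent.P260.H932.Nu
import Vale.Agent.P260.H802.TrC

/-!
# P260, W5 (d): densities along an exact sequence
-/

namespace Vale.Agent.P260.H932

open Module MonoidAlgebra

open scoped Pointwise

variable {Γ : Type} [Group Γ] {ι κ κ' : Type}

theorem Fo.mono {K K' : Finset Γ} {δ δ' : ℝ} {E : Finset Γ} (h : Fo K' δ' E) (hK : K ⊆ K')
    (hδ : δ' ≤ δ) : Fo K δ E :=
  ⟨h.1, fun s hs => (h.2 s (hK hs)).trans
    (mul_le_mul_of_nonneg_right hδ (Nat.cast_nonneg _))⟩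

theorem exists_fo (hF : Folner Γ) (K : Finset Γ) (δ : ℝ) (hδ : 0 < δ) :
    ∃ E : Finset Γ, Fo K δ E := by
  classical
  obtain ⟨E, hE, h⟩ := H802.right_folner hF K δ hδ
  refine ⟨E, hE, fun s hs => le_trans (le_of_eq ?_) (h s hs)⟩
  rw [← Set.ncard_coe_finset]
  congr 2
  ext x
  simp

theorem W_union (S S' : Set Γ) : W ℚ ι (S ∪ S') ≤ W ℚ ι S ⊔ W ℚ ι S' := by
  intro v hv
  refine Submodule.mem_sup.2 ⟨res S v, res_mem S v, v - res S v, ?_, by abel⟩
  intro i g h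
  have h1 := sub_res_mem S v i g h
  have h2 : v - res S v ∈ W ℚ ι (S ∪ S') :=
    Submodule.sub_mem _ hv (W_mono Set.subset_union_left (res_mem S v))
  exact (h2 i g h).resolve_left h1

open scoped Classical in
/-- the outer boundary -/
noncomputable def Bd2 (K E : Finset Γ) : Finset Γ :=
  K.biUnion fun s => (E.filter fun x => x * s ∉ E).image fun x => x * s

theorem card_Bd2 {K : Finset Γ} {δ : ℝ} {E : Finset Γ} (h : Fo K δ E) :
    ((Bd2 K E).card : ℝ) ≤ K.card * δ * E.card := by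
  classical
  have h4 : (Bd2 K E).card ≤ ∑ s ∈ K, (E.filter fun x => x * s ∉ E).card :=
    Finset.card_biUnion_le.trans (Finset.sum_le_sum fun s _ => Finset.card_image_le)
  have h5 : ((Bd2 K E).card : ℝ) ≤ ∑ s ∈ K, ((E.filter fun x => x * s ∉ E).card : ℝ) := by
    exact_mod_cast h4
  refine h5.trans ((Finset.sum_le_sum fun s hs => ?_).trans (le_of_eq
    (Finset.sum_const (b := δ * E.card) ..)) |>.trans (le_of_eq (by rw [nsmul_eq_mul]; ring)))
  exact h.2 s hs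

theorem mul_sub_Bd2 (K E : Finset Γ) :
    (E : Set Γ) * (K : Set Γ) ⊆ (E : Set Γ) ∪ (Bd2 K E : Finset Γ) := by
  classical
  rintro _ ⟨x, hx, s, hs, rfl⟩
  by_cases h : x * s ∈ E
  · exact Or.inl h
  · refine Or.inr ?_
    rw [Finset.mem_coe, Bd2, Finset.mem_biUnion]
    exact ⟨s, hs, Finset.mem_image.2 ⟨x, Finset.mem_filter.2 ⟨hx, h⟩, rfl⟩⟩

variable [Fintype ι] [Fintype κ] [Fintype κ']

theorem key2 {T : (κ → MonoidAlgebra ℚ Γ) →ₗ[MonoidAlgebra ℚ Γ] (ι → MonoidAlgebra ℚ Γ)}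
    (hT : Key T) (ε : ℝ) (hε : 0 < ε) : ∃ (K : Finset Γ) (δ : ℝ), 0 < δ ∧ ∀ E : Finset Γ,
      Fo K δ E → (nu (LinearMap.range (T.restrictScalars ℚ)) - ε) * E.card ≤
        finrank ℚ ((W ℚ κ (E : Set Γ)).map (T.restrictScalars ℚ)) := by
  classical
  obtain ⟨B, K, δ, hδ, h⟩ := hT (ε / 2) (by positivity)
  set c : ℝ := Fintype.card κ * B.card with hc
  have hc0 : 0 ≤ c := by positivity
  refine ⟨K ∪ B, min δ (ε / 2 / (c + 1)), lt_min hδ (by positivity), fun E hE => ?_⟩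
  have h1 := h E (hE.mono Finset.subset_union_left (min_le_left _ _))
  have hB : Fo B (ε / 2 / (c + 1)) E := hE.mono Finset.subset_union_right (min_le_right _ _)
  set TQ := T.restrictScalars ℚ with hTQ
  have f1 := finite_W (k := ℚ) κ E
  have f2 := finite_W (k := ℚ) κ (Bd2 B E)
  have h2 : (W ℚ ι (E : Set Γ) ⊓ (W ℚ κ ((E : Set Γ) * (B : Set Γ))).map TQ :
      Submodule ℚ (ι → MonoidAlgebra ℚ Γ)) ≤
      (W ℚ κ (E : Set Γ)).map TQ ⊔ (W ℚ κ (Bd2 B E : Set Γ)).map TQ := by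
    refine inf_le_right.trans ?_
    rw [← Submodule.map_sup]
    exact Submodule.map_mono ((W_mono (mul_sub_Bd2 B E)).trans (W_union _ _))
  have h3 := (Submodule.finrank_mono h2).trans (Submodule.finrank_add_le_finrank_add_finrank _ _)
  have h4 := finrank_map_W κ (Bd2 B E) TQ _ le_rfl
  have h5 : ((Fintype.card κ * (Bd2 B E).card : ℕ) : ℝ) ≤ ε / 2 * E.card := by
    push_cast
    have h6 := mul_le_mul_of_nonneg_left (card_Bd2 hB) (Nat.cast_nonneg (Fintype.card κ) (α := ℝ))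
    refine h6.trans ?_
    have h7 : (Fintype.card κ : ℝ) * (B.card * (ε / 2 / (c + 1)) * E.card) =
        c / (c + 1) * (ε / 2 * E.card) := by
      rw [hc]; field_simp
    rw [h7]
    have h8 : c / (c + 1) ≤ 1 := by rw [div_le_one (by positivity)]; linarith
    exact mul_le_of_le_one_left (by positivity) h8
  have h9 : (finrank ℚ (W ℚ ι (E : Set Γ) ⊓ (W ℚ κ ((E : Set Γ) * (B : Set Γ))).map TQ :
      Submodule ℚ (ι → MonoidAlgebra ℚ Γ)) : ℝ) ≤
      finrank ℚ ((W ℚ κ (E : Set Γ)).map TQ) + ((Fintype.card κ * (Bd2 B E).card : ℕ) : ℝ) := by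
    exact_mod_cast h3.trans (Nat.add_le_add_left h4 _)
  linarith

theorem key3 {T : (κ → MonoidAlgebra ℚ Γ) →ₗ[MonoidAlgebra ℚ Γ] (ι → MonoidAlgebra ℚ Γ)}
    (hT : Key T) (ε : ℝ) (hε : 0 < ε) : ∃ (K : Finset Γ) (δ : ℝ), 0 < δ ∧ ∀ E : Finset Γ,
      Fo K δ E → (nu (LinearMap.range (T.restrictScalars ℚ)) - ε) * E.card ≤
        finrank ℚ (LinearMap.range (T.restrictScalars ℚ) ⊓ W ℚ ι (E : Set Γ) :
          Submodule ℚ (ι → MonoidAlgebra ℚ Γ)) := by
  obtain ⟨B, K, δ, hδ, h⟩ := hT ε hε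
  refine ⟨K, δ, hδ, fun E hE => (h E hE).trans ?_⟩
  have f1 := finite_W (k := ℚ) ι E
  have f2 : Module.Finite ℚ (LinearMap.range (T.restrictScalars ℚ) ⊓ W ℚ ι (E : Set Γ) :
          Submodule ℚ (ι → MonoidAlgebra ℚ Γ)) := Submodule.finiteDimensional_of_le inf_le_right
  have h2 : (W ℚ ι (E : Set Γ) ⊓ (W ℚ κ ((E : Set Γ) * (B : Set Γ))).map
      (T.restrictScalars ℚ) : Submodule ℚ (ι → MonoidAlgebra ℚ Γ)) ≤
      LinearMap.range (T.restrictScalars ℚ) ⊓ W ℚ ι (E : Set Γ) :=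
    le_inf (inf_le_right.trans (LinearMap.map_le_range)) inf_le_left
  exact_mod_cast Submodule.finrank_mono h2

theorem finrank_W_eq (E : Finset Γ) : finrank ℚ (W ℚ ι (E : Set Γ)) = Fintype.card ι * E.card :=
  H802.finrank_VW (ι := ι) E

/-- rank-nullity in a window -/
theorem rn {V : Type} [AddCommGroup V] [Module ℚ V] (E : Finset Γ)
    (f : (κ → MonoidAlgebra ℚ Γ) →ₗ[ℚ] V) :
    finrank ℚ ((W ℚ κ (E : Set Γ)).map f) +
      finrank ℚ (LinearMap.ker f ⊓ W ℚ κ (E : Set Γ) : Submodule ℚ (κ → MonoidAlgebra ℚ Γ)) =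
      Fintype.card κ * E.card := by
  have f1 : Module.Finite ℚ (W ℚ κ (E : Set Γ)) := finite_W (k := ℚ) κ E
  rw [inf_comm, H802.finrank_ker_add f (W ℚ κ (E : Set Γ)), finrank_W_eq]

/-- upper bound -/
theorem nu_upper (hF : Folner Γ)
    {T : (κ → MonoidAlgebra ℚ Γ) →ₗ[MonoidAlgebra ℚ Γ] (ι → MonoidAlgebra ℚ Γ)}
    {T' : (κ' → MonoidAlgebra ℚ Γ) →ₗ[MonoidAlgebra ℚ Γ] (κ → MonoidAlgebra ℚ Γ)}
    (hT : Key T) (hT' : Key T')
    (hex : LinearMap.ker (T.restrictScalars ℚ) = LinearMap.range (T'.restrictScalars ℚ)) :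
    nu (LinearMap.range (T'.restrictScalars ℚ)) ≤
      Fintype.card κ - nu (LinearMap.range (T.restrictScalars ℚ)) := by
  classical
  refine le_of_forall_pos_le_add fun ε hε => ?_
  obtain ⟨K1, δ1, hδ1, h1⟩ := key2 hT (ε / 2) (by positivity)
  obtain ⟨K2, δ2, hδ2, h2⟩ := key3 hT' (ε / 2) (by positivity)
  obtain ⟨E, hE⟩ := exists_fo hF (K1 ∪ K2) (min δ1 δ2) (lt_min hδ1 hδ2)
  have h3 := h1 E (hE.mono Finset.subset_union_left (min_le_left _ _))
  have h4 := h2 E (hE.mono Finset.subset_union_right (min_le_right _ _))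
  have h5 := rn (κ := κ) E (T.restrictScalars ℚ)
  rw [hex] at h5
  have h6 : (finrank ℚ ((W ℚ κ (E : Set Γ)).map (T.restrictScalars ℚ)) : ℝ) +
      finrank ℚ (LinearMap.range (T'.restrictScalars ℚ) ⊓ W ℚ κ (E : Set Γ) :
        Submodule ℚ (κ → MonoidAlgebra ℚ Γ)) = Fintype.card κ * E.card := by exact_mod_cast h5
  have h7 : (0 : ℝ) < E.card := by exact_mod_cast hE.1.card_pos
  have h8 : (nu (LinearMap.range (T'.restrictScalars ℚ))) * E.card ≤
      (Fintype.card κ - nu (LinearMap.range (T.restrictScalars ℚ)) + ε) * E.card := by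
    nlinarith
  exact le_of_mul_le_mul_right h8 h7

/-- lower bound -/
theorem nu_lower (hF : Folner Γ)
    (T : (κ → MonoidAlgebra ℚ Γ) →ₗ[MonoidAlgebra ℚ Γ] (ι → MonoidAlgebra ℚ Γ)) :
    Fintype.card κ - nu (LinearMap.range (T.restrictScalars ℚ)) ≤
      nu (LinearMap.ker (T.restrictScalars ℚ)) := by
  classical
  set ν := nu (LinearMap.range (T.restrictScalars ℚ)) with hν
  have hν0 : 0 ≤ ν := nu_nonneg _
  refine le_of_forall_pos_le_add fun ε hε => ?_
  set c : ℝ := ν * (Qs T).card with hc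
  have hc0 : 0 ≤ c := by positivity
  obtain ⟨E, hE⟩ := exists_fo hF (Qs T) (ε / (c + 1)) (by positivity)
  have h5 := rn (κ := κ) E (T.restrictScalars ℚ)
  have h6 : (finrank ℚ ((W ℚ κ (E : Set Γ)).map (T.restrictScalars ℚ)) : ℝ) +
      finrank ℚ (LinearMap.ker (T.restrictScalars ℚ) ⊓ W ℚ κ (E : Set Γ) :
        Submodule ℚ (κ → MonoidAlgebra ℚ Γ)) = Fintype.card κ * E.card := by exact_mod_cast h5
  have h7 : (0 : ℝ) < E.card := by exact_mod_cast hE.1.card_pos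
  have h8 := le_nu (LinearMap.ker (T.restrictScalars ℚ)) E
  set E2 := E ∪ Bd2 (Qs T) E with hE2
  have h9 := le_nu (LinearMap.range (T.restrictScalars ℚ)) E2
  have f1 := finite_W (k := ℚ) ι E2
  have f2 : Module.Finite ℚ (LinearMap.range (T.restrictScalars ℚ) ⊓ W ℚ ι (E2 : Set Γ) :
          Submodule ℚ (ι → MonoidAlgebra ℚ Γ)) := Submodule.finiteDimensional_of_le inf_le_right
  have h10 : (W ℚ κ (E : Set Γ)).map (T.restrictScalars ℚ) ≤
      LinearMap.range (T.restrictScalars ℚ) ⊓ W ℚ ι (E2 : Set Γ) := by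
    refine le_inf LinearMap.map_le_range ?_
    rintro _ ⟨v, hv, rfl⟩
    have h11 := map_W T hv
    refine W_mono ?_ h11
    rw [hE2, Finset.coe_union]
    exact mul_sub_Bd2 _ _
  have h11 : (finrank ℚ ((W ℚ κ (E : Set Γ)).map (T.restrictScalars ℚ)) : ℝ) ≤
      ν * E2.card := le_trans (by exact_mod_cast Submodule.finrank_mono h10) h9
  have h12 : (E2.card : ℝ) ≤ E.card + (Qs T).card * (ε / (c + 1)) * E.card := by
    have := Finset.card_union_le E (Bd2 (Qs T) E)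
    have h13 : (E2.card : ℝ) ≤ E.card + (Bd2 (Qs T) E).card := by exact_mod_cast this
    linarith [card_Bd2 hE]
  have h13 : ν * E2.card ≤ (ν + ε) * E.card := by
    have h14 := mul_le_mul_of_nonneg_left h12 hν0
    have h15 : ν * ((Qs T).card * (ε / (c + 1)) * E.card) = c / (c + 1) * (ε * E.card) := by
      rw [hc]; field_simp
    have h16 : c / (c + 1) ≤ 1 := by rw [div_le_one (by positivity)]; linarith
    have h17 : c / (c + 1) * (ε * E.card) ≤ ε * E.card :=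
      mul_le_of_le_one_left (by positivity) h16
    nlinarith
  have h18 : (Fintype.card κ - ν) * E.card ≤
      (nu (LinearMap.ker (T.restrictScalars ℚ)) + ε) * E.card := by nlinarith
  exact le_of_mul_le_mul_right h18 h7

/-- the kernel of a functional -/
theorem nu_base [Infinite Γ] (f : (κ → MonoidAlgebra ℚ Γ) →ₗ[ℚ] ℚ) :
    (Fintype.card κ : ℝ) ≤ nu (LinearMap.ker f) := by
  refine le_of_forall_pos_le_add fun ε hε => ?_
  obtain ⟨n, hn⟩ := exists_nat_gt (1 / ε)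
  have hn0 : 0 < n := by
    have : (0 : ℝ) < n := lt_trans (by positivity) hn
    exact_mod_cast this
  obtain ⟨E, hE⟩ := Infinite.exists_subset_card_eq Γ n
  have h5 := rn (κ := κ) E f
  have h1 : finrank ℚ ((W ℚ κ (E : Set Γ)).map f) ≤ 1 := by
    have := Submodule.finrank_le ((W ℚ κ (E : Set Γ)).map f)
    rwa [Module.finrank_self] at this
  have h6 : (finrank ℚ ((W ℚ κ (E : Set Γ)).map f) : ℝ) +
      finrank ℚ (LinearMap.ker f ⊓ W ℚ κ (E : Set Γ) :
        Submodule ℚ (κ → MonoidAlgebra ℚ Γ)) = Fintype.card κ * E.card := by exact_mod_cast h5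
  have h7 : (finrank ℚ ((W ℚ κ (E : Set Γ)).map f) : ℝ) ≤ 1 := by exact_mod_cast h1
  have h8 := le_nu (LinearMap.ker f) E
  rw [hE] at h6 h8
  have h9 : (0 : ℝ) < n := by exact_mod_cast hn0
  have h10 : 1 ≤ ε * n := by
    rw [div_lt_iff₀ hε] at hn
    linarith
  have h11 : (Fintype.card κ : ℝ) * n ≤ (nu (LinearMap.ker f) + ε) * n := by nlinarith
  exact le_of_mul_le_mul_right h11 h9

end Vale.Agent.P260.H932
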