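import Mathlib
import Vale.Agent.P260.H932.EulD
import Vale.Agent.P260.H802.TrC

/-!
# P260, W5 (e): the canonical trace of the top projective and the Euler characteristic
-/

namespace Vale.Agent.P260.H932

open Matrix Module MonoidAlgebra
open Vale.Agent.P260.H802 (VW toQ rho Prop' exists_prop VW_mono cmp cmp_rho trace_cmp bnd bnd_nonneg
  row_le col_le trace_le quad_le finrank_map_inj rho_apply toQ_apply)
open Vale.Agent.P260.H493 (PDG)

open scoped Pointwise

variable {Γ : Type} [Group Γ] {ι : Type} [Fintype ι]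

theorem top_trace (hF : Folner Γ) {r : ℕ}
    (π : (Fin r → MonoidAlgebra ℚ Γ) →ₗ[MonoidAlgebra ℚ Γ] (Fin r → MonoidAlgebra ℚ Γ))
    (hππ : ∀ v, π (π v) = π v)
    (T : (Fin r → MonoidAlgebra ℚ Γ) →ₗ[MonoidAlgebra ℚ Γ] (ι → MonoidAlgebra ℚ Γ))
    (hTπ : ∀ v, T (π v) = T v) (hker : ∀ v, T v = 0 → π v = 0) :
    ((∑ j, (π (Pi.single j 1) j).coeff 1 : ℚ) : ℝ) ≤
      nu (LinearMap.range (T.restrictScalars ℚ)) := by
  classical
  set ν := nu (LinearMap.range (T.restrictScalars ℚ)) with hν
  have hν0 : 0 ≤ ν := nu_nonneg _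
  obtain ⟨Bπ, hBπ⟩ := exists_prop π
  set B := Bπ ∪ Qs T with hBdef
  set τ := ∑ j, (π (Pi.single j 1) j).coeff 1 with hτ
  set M := bnd π with hM
  have key : ∀ ε : ℝ, 0 < ε → (τ : ℝ) ≤ ν + ε * (B.card * (ν + M * r)) := by
    intro ε hε
    obtain ⟨E, hE⟩ := exists_fo hF B ε hε
    set E1 := E.filter fun x => ∀ s ∈ B, x * s ∈ E with hE1
    set E2 := E ∪ Bd2 B E with hE2'
    have hc1 : (E.card : ℝ) - E1.card ≤ B.card * (ε * E.card) := by
      have h1 : E ⊆ E1 ∪ B.biUnion fun s => E.filter fun x => x * s ∉ E := by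
        intro x hx
        by_cases h : ∀ s ∈ B, x * s ∈ E
        · exact Finset.mem_union_left _ (Finset.mem_filter.2 ⟨hx, h⟩)
        · push Not at h
          obtain ⟨s, hs, hs2⟩ := h
          exact Finset.mem_union_right _ (Finset.mem_biUnion.2 ⟨s, hs, Finset.mem_filter.2 ⟨hx, hs2⟩⟩)
      have h2 := (Finset.card_le_card h1).trans (Finset.card_union_le _ _)
      have h3 : ((B.biUnion fun s => E.filter fun x => x * s ∉ E).card : ℝ) ≤
          B.card * (ε * E.card) := by
        have h4 : ((B.biUnion fun s => E.filter fun x => x * s ∉ E).card : ℝ) ≤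
            ∑ s ∈ B, ((E.filter fun x => x * s ∉ E).card : ℝ) := by
          exact_mod_cast Finset.card_biUnion_le
        refine h4.trans ((Finset.sum_le_sum fun s hs => hE.2 s hs).trans ?_)
        rw [Finset.sum_const, nsmul_eq_mul]
      have h5 : (E.card : ℝ) ≤ E1.card + ((B.biUnion fun s => E.filter fun x => x * s ∉ E).card : ℝ) := by
        exact_mod_cast h2
      linarith
    have hc2 : (E2.card : ℝ) ≤ E.card + B.card * (ε * E.card) := by
      have h1 := Finset.card_union_le E (Bd2 B E)
      have h2 : (E2.card : ℝ) ≤ E.card + (Bd2 B E).card := by exact_mod_cast h1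
      linarith [card_Bd2 hE]
    have hm1 : ∀ x ∈ E1, ∀ s ∈ B, x * s ∈ E := fun x hx => (Finset.mem_filter.1 hx).2
    set Uq := (VW (Fin r) (E1 : Set Γ)).map (toQ π) with hUq
    have hUE : Uq ≤ VW (Fin r) (E : Set Γ) := by
      rintro _ ⟨v, hv, rfl⟩
      exact hBπ.map_mem (fun x hx s hs => hm1 x hx s (Finset.mem_union_left _ hs)) hv
    have hrk : (finrank ℚ Uq : ℝ) ≤ ν * E2.card := by
      have h1 : finrank ℚ (Uq.map (T.restrictScalars ℚ)) = finrank ℚ Uq := by
        refine finrank_map_inj _ Uq ?_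
        rintro _ ⟨v, _, rfl⟩ h
        refine hker v ?_
        rw [← hTπ]
        exact h
      rw [← h1]
      have h2 : Uq.map (T.restrictScalars ℚ) ≤
          LinearMap.range (T.restrictScalars ℚ) ⊓ W ℚ ι (E2 : Set Γ) := by
        refine le_inf LinearMap.map_le_range ?_
        rintro _ ⟨_, ⟨v, hv, rfl⟩, rfl⟩
        have h3 : (T.restrictScalars ℚ) ((toQ π) v) = T v := hTπ v
        rw [h3]
        have h4 : T v ∈ W ℚ ι ((E1 : Set Γ) * (Qs T : Set Γ)) := map_W T hv
        refine W_mono ?_ h4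
        rintro _ ⟨x, hx, s, hs, rfl⟩
        rw [hE2', Finset.coe_union]
        exact Or.inl (hm1 x hx s (Finset.mem_union_right _ hs))
      have f1 := finite_W (k := ℚ) ι E2
      have f2 : Module.Finite ℚ (LinearMap.range (T.restrictScalars ℚ) ⊓ W ℚ ι (E2 : Set Γ) :
          Submodule ℚ (ι → MonoidAlgebra ℚ Γ)) := Submodule.finiteDimensional_of_le inf_le_right
      exact le_trans (by exact_mod_cast Submodule.finrank_mono h2)
        (le_nu (LinearMap.range (T.restrictScalars ℚ)) E2)
    set J : Finset (Fin r × E) := Finset.univ.filter fun p => (p.2 : Γ) ∈ E1 with hJ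
    have hJc : J.card = r * E1.card := by
      have h1 : J = Finset.univ ×ˢ (Finset.univ.filter fun x : E => (x : Γ) ∈ E1) := by
        ext p; simp [hJ]
      have h2 : (Finset.univ.filter fun x : E => (x : Γ) ∈ E1).card = E1.card := by
        refine Finset.card_bij (fun x _ => (x : Γ)) (fun x hx => (Finset.mem_filter.1 hx).2)
          (fun x _ y _ hxy => Subtype.ext hxy) fun x hx => ?_
        exact ⟨⟨x, (Finset.mem_filter.1 hx).1⟩, Finset.mem_filter.2 ⟨Finset.mem_univ _, hx⟩, rfl⟩
      rw [h1, Finset.card_product, Finset.card_univ, Fintype.card_fin, h2]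
    have hmain := trace_le (cmp π E) J M (bnd_nonneg _) (Uq.map (rho (Fin r) E))
      (by
        rintro _ ⟨u, hu, rfl⟩
        rw [cmp_rho π E (hUE hu)]
        obtain ⟨v, _, rfl⟩ := hu
        rw [toQ_apply, hππ])
      (by
        rintro ⟨i, x⟩ hx
        have hx1 : (x : Γ) ∈ E1 := (Finset.mem_filter.1 hx).2
        set e : Fin r → MonoidAlgebra ℚ Γ := Pi.single i (single (x : Γ) 1) with he
        have hee : rho (Fin r) E e = Pi.single (i, x) 1 := by
          funext p
          rw [rho_apply, he]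
          obtain ⟨j, y⟩ := p
          by_cases hij : j = i
          · subst hij
            simp only [Pi.single_eq_same, coeff_single]
            rw [Finsupp.single_apply, Pi.single_apply]
            by_cases hxy : (x : Γ) = y
            · rw [if_pos hxy, if_pos (by rw [Subtype.ext hxy])]
            · rw [if_neg hxy, if_neg (by
                intro h; exact hxy (by rw [Prod.mk.injEq] at h; rw [h.2]))]
          · have h8 : ((j, y) : Fin r × E) ≠ (i, x) := fun h => hij (congrArg Prod.fst h)
            rw [Pi.single_eq_of_ne h8, Pi.single_eq_of_ne hij]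
            rfl
        have hev : e ∈ VW (Fin r) (E1 : Set Γ) := by
          intro j g hg
          by_cases hij : j = i
          · subst hij
            rw [he, Pi.single_eq_same, coeff_single, Finsupp.single_apply] at hg
            by_cases hxg : (x : Γ) = g
            · rw [← hxg]; exact hx1
            · rw [if_neg hxg] at hg; exact absurd rfl hg
          · rw [he, Pi.single_eq_of_ne hij] at hg
            simp at hg
        have hEE : VW (Fin r) (E1 : Set Γ) ≤ VW (Fin r) (E : Set Γ) :=
          VW_mono (by intro y hy; exact (Finset.mem_filter.1 hy).1)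
        refine ⟨rho (Fin r) E (π e), ⟨π e, ⟨e, hev, rfl⟩, rfl⟩, ?_⟩
        have h9 := cmp_rho π E (hEE hev)
        have h10 : cmp π E *ᵥ rho (Fin r) E (π e) = rho (Fin r) E (π (π e)) :=
          cmp_rho π E (hUE ⟨e, hev, rfl⟩)
        rw [hππ] at h10
        rw [Matrix.mulVec_sub, ← hee]
        exact sub_eq_zero.2 (h9.trans h10.symm))
      (quad_le _ M (row_le π E) (col_le π E))
    rw [trace_cmp, Fintype.card_prod, Fintype.card_fin, Fintype.card_coe, hJc] at hmain
    have hfdU : FiniteDimensional ℚ Uq := Submodule.finiteDimensional_of_le hUE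
    have h1 : (finrank ℚ (Uq.map (rho (Fin r) E)) : ℝ) ≤ finrank ℚ Uq := by
      exact_mod_cast Submodule.finrank_map_le _ _
    have hEpos : (0 : ℝ) < E.card := by exact_mod_cast hE.1.card_pos
    have h3 : (τ : ℝ) * E.card ≤ (ν + ε * (B.card * (ν + M * r))) * E.card := by
      have h4 : ((E.card * τ : ℚ) : ℝ) = τ * E.card := by push_cast; ring
      rw [← hτ, h4] at hmain
      push_cast at hmain
      have h5 : M * (r * E.card - r * E1.card) ≤ M * (r * (B.card * (ε * E.card))) := by
        refine mul_le_mul_of_nonneg_left ?_ (bnd_nonneg _)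
        rw [← mul_sub]
        exact mul_le_mul_of_nonneg_left hc1 (by positivity)
      have h6 : ν * E2.card ≤ ν * (E.card + B.card * (ε * E.card)) :=
        mul_le_mul_of_nonneg_left hc2 hν0
      nlinarith
    exact le_of_mul_le_mul_right h3 hEpos
  set C : ℝ := B.card * (ν + M * r) with hC
  have hC0 : 0 ≤ C := by
    have := bnd_nonneg π
    positivity
  refine le_of_forall_pos_le_add fun δ hδ => ?_
  have h1 := key (δ / (C + 1)) (by positivity)
  have h2 : δ / (C + 1) * C ≤ δ := by
    rw [div_mul_eq_mul_div, div_le_iff₀ (by positivity)]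
    nlinarith
  linarith

/-- EUL, from the key lemma. -/
theorem eul_of_key (hkey : ∀ (a b : ℕ) (T : (Fin a → MonoidAlgebra ℚ Γ) →ₗ[MonoidAlgebra ℚ Γ]
      (Fin b → MonoidAlgebra ℚ Γ)), Key T) (hF : Folner Γ) [Infinite Γ] (P : PDG ℚ Γ 3) :
    ∑ j, (P.π (Pi.single j 1) j).coeff 1 ≤ (P.r 3 : ℚ) - P.r 2 + P.r 1 - P.r 0 := by
  have e0 : LinearMap.ker P.ε = LinearMap.range ((P.d 0).restrictScalars ℚ) := by
    ext v
    exact P.ex0 v
  have e1 : LinearMap.ker ((P.d 0).restrictScalars ℚ) =
      LinearMap.range ((P.d 1).restrictScalars ℚ) := by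
    ext v
    exact P.ex 0 (by norm_num) v
  have e2 : LinearMap.ker ((P.d 1).restrictScalars ℚ) =
      LinearMap.range ((P.d 2).restrictScalars ℚ) := by
    ext v
    exact P.ex 1 (by norm_num) v
  have e3 : LinearMap.ker ((P.d 2).restrictScalars ℚ) =
      LinearMap.range ((P.d 3).restrictScalars ℚ) := by
    ext v
    exact P.ex 2 (by norm_num) v
  have h0 := nu_base P.ε
  rw [e0, Fintype.card_fin] at h0
  have h1 := nu_upper hF (hkey _ _ (P.d 0)) (hkey _ _ (P.d 1)) e1
  have h2 := nu_lower hF (P.d 1)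
  rw [e2] at h2
  have h3 := nu_upper hF (hkey _ _ (P.d 2)) (hkey _ _ (P.d 3)) e3
  have h4 := top_trace hF P.π P.pi_pi (P.d 3) P.d_pi P.ex_top
  rw [Fintype.card_fin] at h1 h2 h3
  have h5 : ((∑ j, (P.π (Pi.single j 1) j).coeff 1 : ℚ) : ℝ) ≤
      (P.r 3 : ℝ) - P.r 2 + P.r 1 - P.r 0 := by linarith
  exact_mod_cast h5

end Vale.Agent.P260.H932
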